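import Vale.Agent.N067.Split

set_option autoImplicit false

open Filter

namespace Vale.Agent.Results.P067.A0CayleyRidge

open Vale.Agent.P067 Vale.Agent.N067

/-- (1) In a coboundary expander of bounded degree the top cohomology has dimension at least a
constant times the number of vertices, minus one; and if every `(d - 1)`-face lies in at most two
`d`-faces then the number of vertices is bounded.
(2) There are such expanders which are Cayley complexes of the groups `SL_n (F_p[t] / t^m)`. -/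
theorem result :
    (∀ (d D : ℕ) (ε : ℝ), 1 ≤ d → 0 < ε → ∃ C : ℕ,
      ∀ (V : Type) [Fintype V] (X : AbstractSimplicialComplex V), IsPure X d → degree X d ≤ D →
        IsCoboundaryExpander X d ε →
        Fintype.card V ≤ C * (1 + Module.finrank (ZMod 2)
          ((Face X d → ZMod 2) ⧸ Submodule.span (ZMod 2) (cobs X d))) ∧
        (ridgeDegree X d ≤ 2 → Fintype.card V ≤ C)) ∧
    ∀ d n : ℕ, 1 ≤ d → 2 * d + 1 ≤ n → ∃ p0 : ℕ,
      ∀ (p : ℕ) [Fact p.Prime], p0 ≤ p → ∃ (D : ℕ) (ε : ℝ), 0 < ε ∧ ∀ m : ℕ, 3 ≤ m →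
        ∃ (G : Type) (_ : Group G) (_ : Fintype G),
        Nonempty (G ≃* Matrix.SpecialLinearGroup (Fin n)
          (AdjoinRoot ((Polynomial.X : Polynomial (ZMod p)) ^ m))) ∧
        m ≤ Fintype.card G + 1 ∧
        ∃ (X : AbstractSimplicialComplex G) (H : Finset (Subgroup G)), H.card ≤ n ∧
          (∀ s : Finset G, s ∈ X ↔ s.Nonempty ∧ s.card ≤ d + 1 ∧
            ∃ K ∈ H, ∃ g : G, ∀ x ∈ s, g⁻¹ * x ∈ K) ∧
          (∀ (g : G) (s : Finset G), s.map (Equiv.mulLeft g).toEmbedding ∈ X ↔ s ∈ X) ∧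
          IsPure X d ∧ (skel X).Connected ∧ degree X d ≤ D ∧ IsCoboundaryExpander X d ε :=
  ⟨fun d D ε hd hε => (lower d D ε hε).imp fun _ h V _ X h1 h2 h3 =>
    ⟨(h V X h1 h2 h3).1, (h V X h1 h2 h3).2 hd⟩, cayley⟩

end Vale.Agent.Results.P067.A0CayleyRidge
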