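import Vale.Agent.N067S.Final

set_option autoImplicit false

open Filter

namespace Vale.Agent.Results.P067.A0Coefficients

open Vale.Agent.N067S

/-- (1) For every large prime `p` one family is a family of bounded-degree coboundary expanders,
with one constant, over all abelian groups on which multiplication by `p` is bijective.
(2) Over every field and all its vector spaces, with constants independent of the field.
(3) Over every finite abelian group. -/
theorem result :
    (∀ d : ℕ, 1 ≤ d → ∃ p0 : ℕ, ∀ p : ℕ, p.Prime → p0 ≤ p → ∃ (D : ℕ) (ε : ℝ), 0 < ε ∧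
      ∃ (n : ℕ → ℕ) (X : ∀ m, AbstractSimplicialComplex (Fin (n m))),
        Tendsto n atTop atTop ∧ ∀ m, Bounded (X m) d D ∧
          ∀ (A : Type) [AddCommGroup A], (Function.Bijective fun a : A => p • a) →
            IsExpander (X m) (cob (A := A) (X m)) d ε) ∧
    (∀ d : ℕ, 1 ≤ d → ∃ (D : ℕ) (ε : ℝ), 0 < ε ∧ ∀ (K : Type) [Field K],
      ∃ (n : ℕ → ℕ) (X : ∀ m, AbstractSimplicialComplex (Fin (n m))),
        Tendsto n atTop atTop ∧ ∀ m, Bounded (X m) d D ∧
          ∀ (A : Type) [AddCommGroup A] [Module K A], IsExpander (X m) (cob (A := A) (X m)) d ε) ∧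
    ∀ d : ℕ, 1 ≤ d → ∀ (A : Type) [AddCommGroup A] [Finite A], ∃ (D : ℕ) (ε : ℝ), 0 < ε ∧
      ∃ (n : ℕ → ℕ) (X : ∀ m, AbstractSimplicialComplex (Fin (n m))),
        Tendsto n atTop atTop ∧ ∀ m, Bounded (X m) d D ∧
          IsExpander (X m) (cob (A := A) (X m)) d ε :=
  ⟨Vale.Agent.P067.S.main, field, finite_group⟩

end Vale.Agent.Results.P067.A0Coefficients
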